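import Vale.Agent.P167.H397.Q.S2Defs
import Vale.Agent.P167.H259.FKDone
import Vale.Agent.P167.H259.FKMark
import Vale.Agent.P167.FKA.Basic

/-!
# P167, general `q`, Stage II: comparison of the event `L` for a larger wired arc

`s_rot : 1 ≤ q → S_rot q`: the probability of `LZ` increases when the wired arc is extended beyond
its last point.
-/

set_option autoImplicit false

namespace Vale.Agent.P167.H634.S2

open Relation Vale.Agent.P167.FK Vale.Agent.P167.H192 Vale.Agent.P167.H718 Vale.Agent.P167.H397.Q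
open Vale.Agent.P145.FB (PStep)
open Vale.Agent.P167.E6 (wiredOpen edges Encloses IsPolygon dir face)
open Vale.Agent.P167.FKA (IncS Ex_mono Ex_congr ind_nonneg cf_out)

/-- The squares of the open edges of the cluster increase with the configuration. -/
theorem blk_mono {ω ω' : Cfg} (h : ∀ v, ω v = true → ω' v = true) (w : ℤ × ℤ) :
    blk ω w ⊆ blk ω' w := by
  rintro v ⟨h1, h2⟩
  refine ⟨h v h1, ?_⟩
  refine ReflTransGen.mono (fun a b hab => ?_) _ _ h2
  exact ⟨hab.1, hab.2.1, h _ hab.2.2⟩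

/-- The event `L` is increasing. -/
theorem incS_LZ (w s : ℤ × ℤ) : IncS (LZ w s) := by
  intro ω ω' h h1
  refine Set.Finite.subset h1 fun t ht => ?_
  refine ReflTransGen.mono (fun a b hab => ?_) _ _ ht
  exact ⟨hab.1, hab.2.1, fun h2 => hab.2.2 (blk_mono h w h2)⟩

/-- The event `L` depends only on the cluster. -/
theorem LZ_congr {ω : Cfg} {w w' : ℤ × ℤ} (h : PC ω w w') (s : ℤ × ℤ) :
    ω ∈ LZ w s ↔ ω ∈ LZ w' s := by
  have h1 : blk ω w = blk ω w' := by
    ext v
    constructor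
    · rintro ⟨h2, h3⟩
      exact ⟨h2, (PC_symm h).trans h3⟩
    · rintro ⟨h2, h3⟩
      exact ⟨h2, h.trans h3⟩
  unfold LZ
  rw [Set.mem_ofPred_eq, Set.mem_ofPred_eq, h1]

variable {n : ℕ} {p : ZMod n → ℤ × ℤ} {k j : ℕ} {S : Finset (ℤ × ℤ)}

/-- The wired arc of the rotated polygon contains the wired arc. -/
theorem wE_rot (hj : j < k) : wE p k ⊆ wE (fun i => p (i + (j : ZMod n))) (k - j) := by
  intro e he
  obtain ⟨i, h1, h2, rfl⟩ := mem_wE.1 he
  refine mem_wE.2 ⟨i - j, by omega, by omega, ?_⟩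
  have h3 : ((i - j : ℕ) : ZMod n) + (j : ZMod n) = (i : ZMod n) := by
    rw [← Nat.cast_add, Nat.sub_add_cancel (by omega)]
  have h4 : ((i - j : ℕ) : ZMod n) + 1 + (j : ZMod n) = (i : ZMod n) + 1 := by
    rw [add_right_comm, h3]
  simp only [h3, h4]

theorem mem_wE_rot (hk : k < n) {i : ℕ} (hi : i < j) (hj : j < k) :
    s(p ((i : ZMod n) - 1), p (i : ZMod n)) ∈ wE (fun i => p (i + (j : ZMod n))) (k - j) := by
  refine mem_wE.2 ⟨n - 1 - j + i, by omega, by omega, ?_⟩
  have h3 : ((n - 1 - j + i : ℕ) : ZMod n) + (j : ZMod n) = (i : ZMod n) - 1 := by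
    have h4 : n - 1 - j + i + j + 1 = n + i := by omega
    have h5 := congrArg (fun x : ℕ => (x : ZMod n)) h4
    simp only [Nat.cast_add, Nat.cast_one, ZMod.natCast_self, zero_add] at h5
    rw [← Nat.cast_add] at h5 ⊢
    rw [← h5]
    push_cast
    ring
  have h4 : ((n - 1 - j + i : ℕ) : ZMod n) + 1 + (j : ZMod n) = (i : ZMod n) := by
    rw [add_right_comm, h3, sub_add_cancel]
  simp only [h3, h4]

/-- The base points are joined along the larger wired arc. -/
theorem base_rot (hp : IsPolygon p) (hk : k < n) (hj : j < k) {ω : Cfg}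
    (hω : ∀ e ∈ wE (fun i => p (i + (j : ZMod n))) (k - j), ω (sq e) = true) {i : ℕ}
    (hi : i ≤ j) : PC ω (ro (p (-1))) (ro (p ((i : ZMod n) - 1))) := by
  induction i with
  | zero =>
    rw [Nat.cast_zero, zero_sub]
    exact ReflTransGen.refl
  | succ i ih =>
    refine (ih (by omega)).tail ?_
    have h1 := mem_wE_rot (p := p) hk (show i < j by omega) hj
    have h2 := hω _ h1
    have h3 : ((i + 1 : ℕ) : ZMod n) - 1 = (i : ZMod n) := by push_cast; ring
    rw [h3]
    obtain ⟨r, hr⟩ := hp.2.2 ((i : ZMod n) - 1)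
    rw [sub_add_cancel] at hr
    have h4 : PStep (op (cfg {s(p ((i : ZMod n) - 1), p (i : ZMod n))}))
        (ro (p ((i : ZMod n) - 1))) (ro (p (i : ZMod n))) :=
      PStep_iff.2 ⟨⟨r, hr⟩, Set.mem_singleton _⟩
    refine ⟨h4.1, h4.2.1, ?_⟩
    have h5 : cfg {s(p ((i : ZMod n) - 1), p (i : ZMod n))} (min (ro (p ((i : ZMod n) - 1))).1
        (ro (p (i : ZMod n))).1, min (ro (p ((i : ZMod n) - 1))).2 (ro (p (i : ZMod n))).2) = true :=
      h4.2.2
    rw [cfg_true] at h5
    have h6 := Set.mem_singleton_iff.1 h5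
    show ω _ = true
    rw [← h6, sq_ed] at h2
    exact h2

/-- **Comparison for a larger wired arc.** -/
theorem s_rot {q : ℝ} (hq : 1 ≤ q) : S_rot q := by
  intro n p k j S f hp hE hj hk hf
  have hq0 : 0 < q := by linarith
  have hQ : 1 ≤ √q := Real.one_le_sqrt.2 hq
  have hQ0 : 0 < √q := by linarith
  set p' : ZMod n → ℤ × ℤ := fun i => p (i + (j : ZMod n)) with hp'
  have hpp : IsPolygon p' := by
    refine ⟨hp.1, fun a b hab => ?_, fun i => ?_⟩
    · exact add_right_cancel (hp.2.1 hab)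
    · obtain ⟨r, hr⟩ := hp.2.2 (i + j)
      refine ⟨r, ?_⟩
      simp only [hp']
      rw [add_right_comm]
      exact hr
  have hEE : Encloses p' S := by
    intro v r
    rw [← hE v r]
    constructor
    · rintro ⟨i, h1, h2⟩
      refine ⟨i + j, h1, ?_⟩
      rw [add_right_comm]
      exact h2
    · rintro ⟨i, h1, h2⟩
      refine ⟨i - j, ?_, ?_⟩
      · simp only [hp', sub_add_cancel]
        exact h1
      · simp only [hp']
        rw [add_right_comm, sub_add_cancel]
        exact h2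
  unfold PL
  rw [mean_eq_Ex (k := k) hq0 hp hE ((LZ (ro (p (-1))) (rf f)).indicator 1),
    mean_eq_Ex (k := k - j) hq0 hpp hEE ((LZ (ro (p' (-1))) (rf f)).indicator 1)]
  have hDD : Dq S p' (k - j) ⊆ Dq S p k := by
    unfold Dq
    refine Finset.image_subset_image (Finset.sdiff_subset_sdiff (Finset.Subset.refl _) ?_)
    exact wE_rot hj
  have hinc : IncF ((LZ (ro (p (-1))) (rf f)).indicator 1) := (incS_LZ _ _).incF
  rw [H259.f_markov (√q) _ _ (etaQ p k) ((LZ (ro (p (-1))) (rf f)).indicator 1) hQ0 hDD good_etaQ]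
  have h1 : Ex (√q) (Dq S p' (k - j)) (etaQ p' (k - j)) ((LZ (ro (p' (-1))) (rf f)).indicator 1) =
      Ex (√q) (Dq S p' (k - j)) (etaQ p' (k - j)) ((LZ (ro (p (-1))) (rf f)).indicator 1) := by
    refine Ex_congr fun T hT => ?_
    have h2 : PC (cf (Dq S p' (k - j)) (etaQ p' (k - j)) T) (ro (p (-1)))
        (ro (p ((j : ZMod n) - 1))) := by
      refine base_rot hp hk hj (fun e he => ?_) le_rfl
      have h3 : sq e ∉ Dq S p' (k - j) := by
        intro h3
        obtain ⟨i, -, -, hi⟩ := mem_wE.1 he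
        have h4 : IsEdge e := isEdge_edges (wE_sub hpp hEE he)
        exact ((mem_Dq h4).1 h3).2 he
      rw [cf_out h3]
      unfold etaQ
      rw [cfg_true, ed_sq (isEdge_edges (wE_sub hpp hEE he))]
      exact he
    have h5 : p' (-1) = p ((j : ZMod n) - 1) := by
      simp only [hp']
      rw [neg_add_eq_sub]
    rw [h5]
    by_cases h6 : cf (Dq S p' (k - j)) (etaQ p' (k - j)) T ∈ LZ (ro (p (-1))) (rf f)
    · rw [Set.indicator_of_mem h6, Set.indicator_of_mem ((LZ_congr h2 _).1 h6)]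
    · rw [Set.indicator_of_notMem h6,
        Set.indicator_of_notMem fun h => h6 ((LZ_congr h2 _).2 h)]
  rw [h1]
  set F : Cfg → ℝ := (LZ (ro (p (-1))) (rf f)).indicator 1 with hF
  have h7 : ∀ T, T ⊆ Dq S p k → Ex (√q) (Dq S p' (k - j)) (cf (Dq S p k) (etaQ p k) T) F ≤
      Ex (√q) (Dq S p' (k - j)) (etaQ p' (k - j)) F := by
    intro T hT
    set ω := cf (Dq S p k) (etaQ p k) T with hω
    set ω' : Cfg := cf (Dq S p' (k - j)) (etaQ p' (k - j)) (Dq S p' (k - j)) with hω'
    have h8 : Ex (√q) (Dq S p' (k - j)) ω' F = Ex (√q) (Dq S p' (k - j)) (etaQ p' (k - j)) F := by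
      have h9 : ∀ T', cf (Dq S p' (k - j)) ω' T' = cf (Dq S p' (k - j)) (etaQ p' (k - j)) T' := by
        intro T'
        funext v
        by_cases hv : v ∈ Dq S p' (k - j)
        · simp [cf, hv]
        · rw [cf_out hv, cf_out hv, hω', cf_out hv]
      unfold Ex Zq
      simp only [h9]
    rw [← h8]
    refine H259.f_comp (√q) _ ω ω' F hQ (f_good.1 _ _ _ good_etaQ) (f_good.1 _ _ _ good_etaQ)
      (fun v hv => ?_) hinc
    by_cases h9 : v ∈ Dq S p' (k - j)
    · simp [hω', cf, h9]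
    · rw [hω', cf_out h9]
      unfold etaQ
      rw [cfg_true]
      by_cases h10 : v ∈ Dq S p k
      · have h11 := mem_Dq'.1 h10
        by_contra h12
        exact h9 (mem_Dq'.2 ⟨h11.1, fun h => h12 h⟩)
      · rw [hω, cf_out h10] at hv
        unfold etaQ at hv
        rw [cfg_true] at hv
        exact wE_rot hj hv
  have h13 : Ex (√q) (Dq S p k) (etaQ p k)
      (fun _ => Ex (√q) (Dq S p' (k - j)) (etaQ p' (k - j)) F) =
      Ex (√q) (Dq S p' (k - j)) (etaQ p' (k - j)) F := FKA.Ex_const hQ0 _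
  rw [← h13]
  exact Ex_mono hQ0 h7

end Vale.Agent.P167.H634.S2
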