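import Vale.Agent.P167.H397.Q.S2Mono
import Vale.Agent.P167.H634.Sch.Radial
import Vale.Agent.P167.H634.Sch.Par

/-!
# P167, general `q`, Stage II: moving the starting point

`s_rotA : S_rotA`.
-/

set_option autoImplicit false

namespace Vale.Agent.P167.H634.S2

open Set Metric Topology Filter
open Vale.Agent.P167.H397.Q Vale.Agent.P167.H634.Sch
open Vale.Agent.P167.E6 (Approx IsPolygon Encloses pt)
open Vale.Agent.P153.R2.Final (circ toC dom)
open Vale.Agent.P153.R2.R1 (FC jcurve_FC per_int)

/-- The reparametrisation. -/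
noncomputable def th (t : ℝ) : ℝ := t + Real.pi / 4 * (1 + Real.cos t)

theorem continuous_th : Continuous th := by
  unfold th
  fun_prop

theorem th_lt {s t : ℝ} (h : s < t) : th s < th t := by
  unfold th
  have h1 := abs_le.1 (Real.abs_cos_sub_cos_le s t)
  have h2 : |s - t| = t - s := by rw [abs_sub_comm, abs_of_pos (by linarith)]
  rw [h2] at h1
  have h3 := Real.pi_lt_d2
  have h4 := Real.pi_pos
  nlinarith [h1.1, h1.2]

theorem strictMono_th : StrictMono th := fun _ _ h => th_lt h

theorem th_add (t : ℝ) : th (t + 2 * Real.pi) = th t + 2 * Real.pi := by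
  unfold th
  rw [Real.cos_add_two_pi]
  ring

theorem th_zero : th 0 = Real.pi / 2 := by
  unfold th
  rw [Real.cos_zero]
  ring

theorem th_pi : th Real.pi = Real.pi := by
  unfold th
  rw [Real.cos_pi]
  ring

theorem th_two_pi : th (2 * Real.pi) = Real.pi / 2 + 2 * Real.pi := by
  rw [← th_zero, ← th_add, zero_add]

theorem surjective_th : Function.Surjective th := by
  intro y
  refine mem_range_of_exists_le_of_exists_ge continuous_th ⟨y - Real.pi, ?_⟩ ⟨y, ?_⟩
  · unfold th
    nlinarith [Real.cos_le_one (y - Real.pi), Real.pi_pos]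
  · unfold th
    nlinarith [Real.neg_one_le_cos y, Real.pi_pos]

/-- **Moving the starting point to the middle of the free arc.** -/
theorem s_rotA : S_rotA := by
  intro Φ δ N k p S hA
  obtain ⟨hA1, hA2, hA3⟩ := hA
  obtain ⟨Ψ, hΨ1, hΨ2⟩ := exists_circle continuous_th strictMono_th th_add surjective_th
  set θ : ℝ ≃o ℝ := strictMono_th.orderIsoOfSurjective _ surjective_th with hθ
  have hθa : ∀ t, θ t = th t := fun t => rfl
  have hJ := jcurve_FC Φ
  have hpi := Real.pi_pos
  -- the vertex nearest to the new starting point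
  have hj : ∀ n, ∃ j, j < k n ∧ ∀ i < k n,
      dist ((δ n : ℂ) * pt (p n j)) (FC Φ (Real.pi / 2)) ≤
        dist ((δ n : ℂ) * pt (p n i)) (FC Φ (Real.pi / 2)) := by
    intro n
    obtain ⟨j, hj1, hj2⟩ := Finset.exists_min_image (Finset.range (k n))
      (fun i => dist ((δ n : ℂ) * pt (p n i)) (FC Φ (Real.pi / 2)))
      ⟨0, Finset.mem_range.2 (hA1 n).2.1⟩
    exact ⟨j, Finset.mem_range.1 hj1, fun i hi => hj2 i (Finset.mem_range.2 hi)⟩
  choose j hj1 hj2 using hj
  refine ⟨Ψ.trans Φ, j, hj1, ⟨?_, hA2, ?_⟩, ?_, ?_, ?_⟩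
  · intro n
    obtain ⟨h1, h2, h3, h4, h5⟩ := hA1 n
    have h6 := hj1 n
    refine ⟨h1, show 0 < k n - j n by omega, show k n - j n < N n by omega,
      ⟨h4.1, fun a b hab => add_right_cancel (h4.2.1 hab), fun i => ?_⟩, fun v r => ?_⟩
    · obtain ⟨r, hr⟩ := h4.2.2 (i + (j n : ZMod (N n)))
      refine ⟨r, ?_⟩
      show p n (i + 1 + (j n : ZMod (N n))) = p n (i + (j n : ZMod (N n))) + _
      rw [add_right_comm]
      exact hr
    · rw [← h5 v r]
      constructor
      · rintro ⟨i, h1, h2⟩
        refine ⟨i + (j n : ZMod (N n)), h1, ?_⟩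
        rw [add_right_comm]
        exact h2
      · rintro ⟨i, h1, h2⟩
        refine ⟨i - (j n : ZMod (N n)), ?_, ?_⟩
        · simp only [sub_add_cancel]
          exact h1
        · show p n (i - (j n : ZMod (N n)) + 1 + (j n : ZMod (N n))) = _
          rw [add_right_comm, sub_add_cancel]
          exact h2
  · intro ε hε
    obtain ⟨τ, hτ, hτ'⟩ := hJ.uniform (show 0 < ε / 2 by linarith)
    set η := min τ (Real.pi / 4) with hη
    have hη0 : 0 < η := lt_min hτ (by linarith)
    obtain ⟨m, hm, hm'⟩ := hJ.uniform_inj hη0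
    have hε' : 0 < min (ε / 2) (m / 2) := lt_min (by linarith) (by linarith)
    filter_upwards [hA3 _ hε'] with n hn
    obtain ⟨s, hs, hs0, hsk, hsN, hsx⟩ := hn
    obtain ⟨h1, h2, h3, h4, h5⟩ := hA1 n
    have h6 := hj1 n
    -- the parameter of the new start
    have h7 : |s (j n) - Real.pi / 2| ≤ η := by
      have h8 : ∃ i < k n, Real.pi / 2 ∈ Icc (s i) (s (i + 1)) := by
        by_contra hcon
        push Not at hcon
        have h9 : ∀ i ≤ k n, s i < Real.pi / 2 := by
          intro i
          induction i with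
          | zero =>
            intro _
            rw [hs0]
            linarith
          | succ i ih =>
            intro hi
            have h10 := ih (by omega)
            by_contra h11
            push Not at h11
            exact hcon i (by omega) ⟨h10.le, h11⟩
        have := h9 (k n) le_rfl
        rw [hsk] at this
        linarith
      obtain ⟨i, hi, hi'⟩ := h8
      have h9 := hsx i (by omega) _ hi'
      have h10 := (hj2 n i hi).trans_lt h9
      have h11 := hsx (j n) (by omega) (s (j n)) ⟨le_rfl, hs (Nat.le_succ _)⟩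
      have h12 : dist (FC Φ (s (j n))) (FC Φ (Real.pi / 2)) < m := by
        have h13 := dist_triangle_left (FC Φ (s (j n))) (FC Φ (Real.pi / 2))
          ((δ n : ℂ) * pt (p n (j n)))
        have h14 := min_le_right (ε / 2) (m / 2)
        have h15 : dist ((δ n : ℂ) * pt (p n (j n))) (FC Φ (s (j n))) < min (ε / 2) (m / 2) := h11
        linarith
      obtain ⟨l, hl⟩ := hm' _ _ h12
      have h13 : 0 ≤ s (j n) := by rw [← hs0]; exact hs (Nat.zero_le _)
      have h14 : s (j n) ≤ Real.pi := by rw [← hsk]; exact hs h6.le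
      have h15 := min_le_right τ (Real.pi / 4)
      rw [abs_lt] at hl
      have h16 : l = 0 := by
        have h17 : (l : ℝ) < 1 := by
          by_contra h
          push Not at h
          nlinarith [hl.1, hl.2]
        have h18 : (-1 : ℝ) < l := by
          by_contra h
          push Not at h
          nlinarith [hl.1, hl.2]
        have h19 : l < 1 := by exact_mod_cast h17
        have h20 : -1 < l := by exact_mod_cast h18
        omega
      rw [h16, Int.cast_zero, zero_mul, sub_zero] at hl
      rw [abs_le]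
      exact ⟨hl.1.le, hl.2.le⟩
    -- the parameters, continued
    set s₁ : ℕ → ℝ := fun i => if i ≤ N n then s i else 2 * Real.pi + s (i - N n) with hs₁
    have hs₁a : ∀ i, i ≤ N n → s₁ i = s i := fun i hi => by simp only [hs₁]; rw [if_pos hi]
    have hs₁b : ∀ i, N n ≤ i → s₁ i = 2 * Real.pi + s (i - N n) := by
      intro i hi
      simp only [hs₁]
      by_cases h : i ≤ N n
      · have : i = N n := le_antisymm h hi
        rw [if_pos h, this, hsN, Nat.sub_self, hs0, add_zero]
      · rw [if_neg h]
    have hs₁m : Monotone s₁ := by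
      refine monotone_nat_of_le_succ fun i => ?_
      rcases lt_or_ge i (N n) with h | h
      · rw [hs₁a i h.le, hs₁a (i + 1) h]
        exact hs (Nat.le_succ i)
      · rw [hs₁b i h, hs₁b (i + 1) (by omega)]
        have : i + 1 - N n = (i - N n) + 1 := by omega
        rw [this]
        linarith [hs (Nat.le_succ (i - N n))]
    have hclose : ∀ i < N n, ∀ t ∈ Icc (s₁ (i + j n)) (s₁ (i + 1 + j n)),
        dist ((δ n : ℂ) * pt (p n (((i : ℕ) : ZMod (N n)) + ((j n : ℕ) : ZMod (N n)))))
          (FC Φ t) < min (ε / 2) (m / 2) := by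
      intro i hi t ht
      rw [← Nat.cast_add]
      rcases lt_or_ge (i + j n) (N n) with h | h
      · rw [hs₁a _ h.le, hs₁a _ (by omega)] at ht
        refine hsx (i + j n) h t ?_
        rw [show i + j n + 1 = i + 1 + j n by omega]
        exact ht
      · rw [hs₁b _ h, hs₁b _ (by omega)] at ht
        have h8 := hsx (i + j n - N n) (by omega) (t - 2 * Real.pi) (by
          rw [show i + j n - N n + 1 = i + 1 + j n - N n by omega]
          exact ⟨by linarith [ht.1], by linarith [ht.2]⟩)
        have h9 : ((i + j n - N n : ℕ) : ZMod (N n)) = ((i + j n : ℕ) : ZMod (N n)) := by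
          rw [Nat.cast_sub h, ZMod.natCast_self, sub_zero]
        rw [h9] at h8
        have h10 : toC (Φ (circ (t - 2 * Real.pi))) = FC Φ t := by
          show FC Φ (t - 2 * Real.pi) = FC Φ t
          rw [← hJ.per, sub_add_cancel]
        rw [h10] at h8
        exact h8
    obtain ⟨s₂, hs₂m, hs₂0, hs₂k, hs₂N, hs₂x⟩ := exists_fix (c := FC Φ)
      (x := fun i => (δ n : ℂ) * pt (p n (((i : ℕ) : ZMod (N n)) + ((j n : ℕ) : ZMod (N n)))))
      (s := fun i => s₁ (i + j n)) (N := N n) (k := k n - j n) (a0 := Real.pi / 2)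
      (a1 := Real.pi) (a2 := Real.pi / 2 + 2 * Real.pi) (η := η) (ε := min (ε / 2) (m / 2))
      (ω := ε / 2) hη0.le (fun a b hab => hs₁m (Nat.add_le_add_right hab _)) (by omega)
      (by omega) (by linarith) (by linarith)
      (by
        simp only [zero_add]
        rw [hs₁a _ (by omega)]
        exact h7)
      (by
        rw [Nat.sub_add_cancel h6.le, hs₁a _ (by omega), hsk, sub_self, abs_zero]
        exact hη0.le)
      (by
        rw [hs₁b _ (by omega), Nat.add_sub_cancel_left]
        have : 2 * Real.pi + s (j n) - (Real.pi / 2 + 2 * Real.pi) = s (j n) - Real.pi / 2 := by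
          ring
        rw [this]
        exact h7)
      hclose
      (fun u t h => hτ' u t (h.trans (min_le_left _ _)))
    refine ⟨fun i => θ.symm (s₂ i), fun a b hab => θ.symm.monotone (hs₂m hab), ?_, ?_, ?_,
      fun i hi t ht => ?_⟩
    · simp only
      rw [hs₂0, OrderIso.symm_apply_eq, hθa, th_zero]
    · simp only
      rw [hs₂k, OrderIso.symm_apply_eq, hθa, th_pi]
    · simp only
      rw [hs₂N, OrderIso.symm_apply_eq, hθa, th_two_pi]
    · have h8 : th t ∈ Icc (s₂ i) (s₂ (i + 1)) := by
        rw [← hθa]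
        exact ⟨(θ.symm_apply_le).1 ht.1, (θ.le_symm_apply).1 ht.2⟩
      have h9 := hs₂x i hi _ h8
      have h10 : toC ((Ψ.trans Φ) (circ t)) = FC Φ (th t) := by
        show toC (Φ (Ψ (circ t))) = _
        rw [hΨ1]
        rfl
      rw [h10]
      refine h9.trans_le ?_
      have := min_le_left (ε / 2) (m / 2)
      linarith
  · have h1 : dom (Ψ.trans Φ) = dom Φ := by
      show (fun z => Φ (Ψ z)) '' _ = Φ '' _
      rw [← image_image, hΨ2]
    rw [h1]
  · show Φ (Ψ (circ Real.pi)) = _
    rw [hΨ1, th_pi]
  · show Φ (Ψ (circ 0)) = _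
    rw [hΨ1, th_zero]

end Vale.Agent.P167.H634.S2
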